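import Vale.Agent.P043.Z3.Padded
import Vale.Agent.P043.EuclidTwo

/-!
# The periodic tiling conjecture in every dimension where it was open

It is false in `ℤ^d` for every `d ≥ 3` and in `ℝ^d` for every `d ≥ 2`.
-/

namespace Vale.Agent.Results.P043.PTCFailsOpenDims

open MeasureTheory

/-- For every `d ≥ 3` some finite tile of `ℤ^d` has no periodic tiling, and for every `d ≥ 2` some
bounded measurable tile of `ℝ^d` has no periodic tiling. -/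
theorem result :
    (∀ d : ℕ, 3 ≤ d → ∃ F : Finset (Fin d → ℤ), F.Nonempty ∧
      (∃ A : Set (Fin d → ℤ), ∀ x, ∃! a, a ∈ A ∧ x - a ∈ F) ∧
      ∀ A : Set (Fin d → ℤ), (∀ x, ∃! a, a ∈ A ∧ x - a ∈ F) →
        ¬ ∃ H : AddSubgroup (Fin d → ℤ), H.FiniteIndex ∧ ∀ h ∈ H, ∀ a, a + h ∈ A ↔ a ∈ A) ∧
    (∀ d : ℕ, 2 ≤ d → ∃ Ω : Set (Fin d → ℝ), Bornology.IsBounded Ω ∧
      MeasurableSet Ω ∧ 0 < volume Ω ∧
      (∃ A : Set (Fin d → ℝ), volume (⋃ a ∈ A, (fun x => a + x) '' Ω)ᶜ = 0 ∧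
        ∀ a ∈ A, ∀ b ∈ A, a ≠ b → volume ((fun x => a + x) '' Ω ∩ (fun x => b + x) '' Ω) = 0) ∧
      ∀ A : Set (Fin d → ℝ), volume (⋃ a ∈ A, (fun x => a + x) '' Ω)ᶜ = 0 →
        (∀ a ∈ A, ∀ b ∈ A, a ≠ b →
          volume ((fun x => a + x) '' Ω ∩ (fun x => b + x) '' Ω) = 0) →
        ¬ ∃ v : Module.Basis (Fin d) ℝ (Fin d → ℝ), ∀ i a, a + v i ∈ A ↔ a ∈ A) :=
  ⟨Vale.Agent.P043.Z3.ptc_fails_three, Vale.Agent.P043.EuclidTwo.euclidTwo⟩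

end Vale.Agent.Results.P043.PTCFailsOpenDims
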